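import Mathlib

/-!
# P248 (helper1): polar sets about a point, the volume product, cones over a base

Definitions for the second question of P248: the polar set of `K` about a point `z`, the
volume product `P(K)` (an infimum over the interior points of `K`), and the cone (pyramid)
over a base placed in a coordinate hyperplane.
-/

namespace Vale.Agent.Lib.P248.H1

open MeasureTheory Set
open scoped ENNReal

/-- The polar set of `K` about the point `z`: all `y` with `⟪x - z, y⟫ ≤ 1` for every
`x ∈ K`, that is `(K - z)°`. -/
def polarAt {m : ℕ} (K : Set (EuclideanSpace ℝ (Fin m))) (z : EuclideanSpace ℝ (Fin m)) :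
    Set (EuclideanSpace ℝ (Fin m)) :=
  {y | ∀ x ∈ K, inner ℝ (x - z) y ≤ 1}

/-- The volume product `P(K)`: the infimum over the interior points `z` of `K` of
`|K| * |(K - z)°|`, with values in `[0, ∞]`. -/
noncomputable def volProd {m : ℕ} (K : Set (EuclideanSpace ℝ (Fin m))) : ℝ≥0∞ :=
  ⨅ z ∈ interior K, volume K * volume (polarAt K z)

/-- The cone (pyramid) over the base `D`, placed in the hyperplane `x_0 = 0` of `R^(n+1)`,
with apex the point with first coordinate `h` and remaining coordinates `c`: the union of
the segments from the points `(0, d)`, `d ∈ D`, to the apex `(h, c)`. -/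
def cone {n : ℕ} (D : Set (EuclideanSpace ℝ (Fin n))) (c : EuclideanSpace ℝ (Fin n)) (h : ℝ) :
    Set (EuclideanSpace ℝ (Fin (n + 1))) :=
  {x | ∃ d ∈ D, ∃ r : ℝ, 0 ≤ r ∧ r ≤ 1 ∧ x 0 = r * h ∧
    ∀ i : Fin n, x i.succ = (1 - r) * d i + r * c i}

end Vale.Agent.Lib.P248.H1
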