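import Mathlib
import Vale.Agent.Lib.P227.helper98.Fibre
import Vale.Agent.Lib.P248.helper1.ConeDefs

/-!
# P248 (helper1): auxiliary sets for the volume product of a cone

The cone written with `ecomb`, the slab model of the polar of a cone about an interior
point, and the shear of the dual space used for an oblique cone.
-/

namespace Vale.Agent.Lib.P248.H1

open MeasureTheory Set
open scoped ENNReal
open Vale.Agent.Lib.P227

/-- The cone over `D` with apex `(h, c)`, written with `ecomb`. -/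
def coneE {n : ℕ} (D : Set (EuclideanSpace ℝ (Fin n))) (c : EuclideanSpace ℝ (Fin n)) (h : ℝ) :
    Set (EuclideanSpace ℝ (Fin (n + 1))) :=
  {x | ∃ d ∈ D, ∃ r : ℝ, 0 ≤ r ∧ r ≤ 1 ∧ x = ecomb (r * h) ((1 - r) • d + r • c)}

theorem cone_eq_coneE {n : ℕ} (D : Set (EuclideanSpace ℝ (Fin n)))
    (c : EuclideanSpace ℝ (Fin n)) (h : ℝ) : cone D c h = coneE D c h := by
  ext x
  constructor
  · rintro ⟨d, hd, r, hr0, hr1, hx0, hxs⟩
    refine ⟨d, hd, r, hr0, hr1, ?_⟩
    ext i
    refine Fin.cases ?_ (fun j => ?_) i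
    · rw [ecomb_zero, hx0]
    · rw [ecomb_succ, hxs j]
      simp
  · rintro ⟨d, hd, r, hr0, hr1, rfl⟩
    refine ⟨d, hd, r, hr0, hr1, ecomb_zero _ _, fun i => ?_⟩
    rw [ecomb_succ]
    simp

/-- The slab body used for the polar of a cone about an interior point, after the shear. -/
def polarModel {n : ℕ} (D : Set (EuclideanSpace ℝ (Fin n))) (ζ : EuclideanSpace ℝ (Fin n))
    (τ : ℝ) : Set (EuclideanSpace ℝ (Fin (n + 1))) :=
  {y | -1 / τ ≤ y 0 ∧ y 0 ≤ 1 / (1 - τ) ∧
    ∀ d ∈ D, inner ℝ (d - ζ) (etail y) ≤ 1 + τ * y 0}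

/-- The shear of the dual space used for an oblique cone. -/
noncomputable def shear {n : ℕ} (v : EuclideanSpace ℝ (Fin n)) (h : ℝ)
    (y : EuclideanSpace ℝ (Fin (n + 1))) : EuclideanSpace ℝ (Fin (n + 1)) :=
  ecomb (h * y 0 + inner ℝ v (etail y)) (etail y)

end Vale.Agent.Lib.P248.H1
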