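import Mathlib
import Vale.Agent.Lib.P248.helper1.ConeAux
import Vale.Agent.Lib.P248.helper77.ConeVol
import Vale.Agent.Lib.P248.helper47.ShearVol
import Vale.Agent.Lib.P248.helper43.ShearPolar
import Vale.Agent.Lib.P248.helper81.ModelVol
import Vale.Agent.Lib.P248.helper93.TauAmgm
import Vale.Agent.Lib.P248.helper93.ConeInterior
import Vale.Agent.Lib.P248.helper22.ConeVolLe
import Vale.Agent.Lib.P248.helper24.ModelVolLe
import Vale.Agent.Lib.P248.helper79.ConeInteriorMem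
import Vale.Agent.Lib.P248.helper70.PolarShear

/-!
# P248 (helper1): the volume product of a cone

For a compact set `D ⊆ R^n` and the cone `K` over `D` with apex `(h, c)`, `h > 0`:
`P(K) = ((n+2)^(n+2) / (n+1)^(n+3)) * P(D)`, where `P` is the volume product (the infimum
over interior points).  Consequently the simplex bound of the general Mahler conjecture
passes from `D` to `K`, and `K` attains the simplex value exactly when `D` does.
-/

namespace Vale.Agent.Lib.P248.H1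

open MeasureTheory Set
open scoped ENNReal
open Vale.Agent.Lib.P227

/-- The exact value of the product at the point of the cone at relative height `τ` over the
base point `ζ`. -/
theorem cone_point_eq {n : ℕ} (D : Set (EuclideanSpace ℝ (Fin n))) (hD : IsCompact D)
    (c : EuclideanSpace ℝ (Fin n)) (h : ℝ) (hh : 0 < h)
    (ζ : EuclideanSpace ℝ (Fin n)) (hζ : ζ ∈ D) (τ : ℝ) (hτ0 : 0 < τ) (hτ1 : τ < 1) :
    volume (coneE D c h) *
        volume (polarAt (coneE D c h) (ecomb (τ * h) ((1 - τ) • ζ + τ • c))) =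
      ENNReal.ofReal (1 / ((n + 1 : ℝ) ^ 2 * (τ * (1 - τ) ^ (n + 1)))) *
        (volume D * volume (polarAt D ζ)) := by
  have hKm : MeasurableSet (coneE D c h) := (H77.isCompact_coneE D hD c h).measurableSet
  have hA : volume (coneE D c h) = ENNReal.ofReal (h / (n + 1)) * volume D :=
    le_antisymm (H22.vol_cone_le D c h hh hKm) (H77.vol_cone_ge D hD c h hh)
  have hC1 : polarAt (coneE D c h) (ecomb (τ * h) ((1 - τ) • ζ + τ • c)) =
      shear (c - ζ) h ⁻¹' polarModel D ζ τ :=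
    Subset.antisymm (H70.polar_subset_shear_preimage D c ζ hζ h τ hh hτ0 hτ1)
      (H43.shear_preimage_subset_polar D c ζ h τ hh hτ0 hτ1)
  have hB := H47S.shear_preimage (c - ζ) h hh (polarModel D ζ τ)
    (H81.measurableSet_polarModel D ζ τ)
  have hC2 : volume (polarModel D ζ τ) =
      ENNReal.ofReal (1 / ((n + 1) * τ * (1 - τ) ^ (n + 1))) * volume (polarAt D ζ) :=
    le_antisymm (H24.vol_polarModel_le D ζ τ hτ0 hτ1) (H81.vol_polarModel_ge D ζ τ hτ0 hτ1)
  have h1τ : 0 < 1 - τ := by linarith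
  have hn1 : (0 : ℝ) < n + 1 := by positivity
  have hconst : 1 / ((n + 1 : ℝ) ^ 2 * (τ * (1 - τ) ^ (n + 1))) =
      h / (n + 1) * (1 / h * (1 / ((n + 1) * τ * (1 - τ) ^ (n + 1)))) := by
    field_simp
  rw [hA, hC1, hB, hC2, hconst, ENNReal.ofReal_mul (by positivity),
    ENNReal.ofReal_mul (by positivity)]
  ring

/-- The value of `1 / ((n+1)^2 τ (1-τ)^(n+1))` at `τ = 1/(n+2)`. -/
theorem tau_opt (n : ℕ) :
    1 / ((n + 1 : ℝ) ^ 2 * (1 / (n + 2 : ℝ) * (1 - 1 / (n + 2 : ℝ)) ^ (n + 1))) =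
      (n + 2 : ℝ) ^ (n + 2) / (n + 1 : ℝ) ^ (n + 3) := by
  have h2 : (n + 2 : ℝ) ≠ 0 := by positivity
  have h1 : (n + 1 : ℝ) ≠ 0 := by positivity
  have e : 1 - 1 / (n + 2 : ℝ) = (n + 1) / (n + 2) := by
    field_simp
    ring
  rw [e, div_pow]
  field_simp
  ring

/-- The real constant inequality: `(n+2)^(n+2)/(n+1)^(n+3) ≤ 1/((n+1)^2 τ (1-τ)^(n+1))`. -/
theorem tau_const_le (n : ℕ) (τ : ℝ) (hτ0 : 0 < τ) (hτ1 : τ < 1) :
    (n + 2 : ℝ) ^ (n + 2) / (n + 1 : ℝ) ^ (n + 3) ≤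
      1 / ((n + 1 : ℝ) ^ 2 * (τ * (1 - τ) ^ (n + 1))) := by
  have hE := H93.tau_amgm n τ hτ0.le hτ1.le
  have h1τ : 0 < 1 - τ := by linarith
  have hn1 : (0 : ℝ) < n + 1 := by positivity
  rw [div_le_div_iff₀ (by positivity) (by positivity)]
  calc (n + 2 : ℝ) ^ (n + 2) * ((n + 1 : ℝ) ^ 2 * (τ * (1 - τ) ^ (n + 1)))
      = (n + 1 : ℝ) ^ 2 * ((n + 2 : ℝ) ^ (n + 2) * (τ * (1 - τ) ^ (n + 1))) := by ring
    _ ≤ (n + 1 : ℝ) ^ 2 * (n + 1 : ℝ) ^ (n + 1) := by gcongr
    _ = 1 * (n + 1 : ℝ) ^ (n + 3) := by ring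

/-- The volume product of a cone is at least `(n+2)^(n+2) / (n+1)^(n+3)` times the volume
product of its base. -/
theorem cone_volProd_ge {n : ℕ} (D : Set (EuclideanSpace ℝ (Fin n))) (hD : IsCompact D)
    (c : EuclideanSpace ℝ (Fin n)) (h : ℝ) (hh : 0 < h) :
    ENNReal.ofReal ((n + 2 : ℝ) ^ (n + 2) / (n + 1 : ℝ) ^ (n + 3)) * volProd D ≤
      volProd (cone D c h) := by
  rw [cone_eq_coneE]
  refine le_iInf₂ fun z hz => ?_
  obtain ⟨ζ, hζ, τ, hτ0, hτ1, rfl⟩ := H93.interior_coneE D c h hh z hz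
  rw [cone_point_eq D hD c h hh ζ (interior_subset hζ) τ hτ0 hτ1]
  have h1 := ENNReal.ofReal_le_ofReal (tau_const_le n τ hτ0 hτ1)
  have h2 : volProd D ≤ volume D * volume (polarAt D ζ) := iInf₂_le ζ hζ
  gcongr

/-- The volume product of a cone is at most `(n+2)^(n+2) / (n+1)^(n+3)` times the volume
product of its base. -/
theorem cone_volProd_le {n : ℕ} (D : Set (EuclideanSpace ℝ (Fin n))) (hD : IsCompact D)
    (c : EuclideanSpace ℝ (Fin n)) (h : ℝ) (hh : 0 < h) :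
    volProd (cone D c h) ≤
      ENNReal.ofReal ((n + 2 : ℝ) ^ (n + 2) / (n + 1 : ℝ) ^ (n + 3)) * volProd D := by
  rw [cone_eq_coneE]
  have hc0 : ENNReal.ofReal ((n + 2 : ℝ) ^ (n + 2) / (n + 1 : ℝ) ^ (n + 3)) ≠ 0 := by
    rw [Ne, ENNReal.ofReal_eq_zero, not_le]
    positivity
  have hτ0 : (0 : ℝ) < 1 / (n + 2 : ℝ) := by positivity
  have hτ1 : 1 / (n + 2 : ℝ) < 1 := by
    rw [div_lt_one (by positivity)]
    have : (0 : ℝ) ≤ n := Nat.cast_nonneg n
    linarith
  show volProd (coneE D c h) ≤ _ * ⨅ ζ ∈ interior D, volume D * volume (polarAt D ζ)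
  rw [ENNReal.mul_iInf_of_ne hc0 ENNReal.ofReal_ne_top]
  refine le_iInf fun ζ => ?_
  rw [ENNReal.mul_iInf_of_ne hc0 ENNReal.ofReal_ne_top]
  refine le_iInf fun hζ => ?_
  have hz := H79.mem_interior_coneE D c ζ hζ h (1 / (n + 2 : ℝ)) hh hτ0 hτ1
  refine le_trans (iInf₂_le _ hz) ?_
  rw [cone_point_eq D hD c h hh ζ (interior_subset hζ) _ hτ0 hτ1, tau_opt]

/-- The volume product of a cone is exactly `(n+2)^(n+2) / (n+1)^(n+3)` times the volume
product of its base. -/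
theorem cone_volProd_eq {n : ℕ} (D : Set (EuclideanSpace ℝ (Fin n))) (hD : IsCompact D)
    (c : EuclideanSpace ℝ (Fin n)) (h : ℝ) (hh : 0 < h) :
    volProd (cone D c h) =
      ENNReal.ofReal ((n + 2 : ℝ) ^ (n + 2) / (n + 1 : ℝ) ^ (n + 3)) * volProd D :=
  le_antisymm (cone_volProd_le D hD c h hh) (cone_volProd_ge D hD c h hh)

/-- The product of the cone constant and the simplex value in dimension `n` is the simplex
value in dimension `n + 1`. -/
theorem simplex_const (n : ℕ) :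
    ENNReal.ofReal ((n + 2 : ℝ) ^ (n + 2) / ((n + 1).factorial : ℝ) ^ 2) =
      ENNReal.ofReal ((n + 2 : ℝ) ^ (n + 2) / (n + 1 : ℝ) ^ (n + 3)) *
        ENNReal.ofReal ((n + 1 : ℝ) ^ (n + 1) / (n.factorial : ℝ) ^ 2) := by
  have hf : (n.factorial : ℝ) ≠ 0 := by positivity
  have hn1 : (n + 1 : ℝ) ≠ 0 := by positivity
  rw [← ENNReal.ofReal_mul (by positivity)]
  congr 1
  rw [Nat.factorial_succ]
  push_cast
  field_simp
  ring

/-- The simplex bound of the general Mahler conjecture passes from the base to the cone. -/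
theorem cone_volProd_cond {n : ℕ} (D : Set (EuclideanSpace ℝ (Fin n))) (hD : IsCompact D)
    (c : EuclideanSpace ℝ (Fin n)) (h : ℝ) (hh : 0 < h)
    (hyp : ENNReal.ofReal ((n + 1 : ℝ) ^ (n + 1) / (n.factorial : ℝ) ^ 2) ≤ volProd D) :
    ENNReal.ofReal ((n + 2 : ℝ) ^ (n + 2) / ((n + 1).factorial : ℝ) ^ 2) ≤
      volProd (cone D c h) := by
  rw [cone_volProd_eq D hD c h hh, simplex_const]
  gcongr

/-- The cone attains the simplex value exactly when its base does. -/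
theorem cone_volProd_eq_iff {n : ℕ} (D : Set (EuclideanSpace ℝ (Fin n))) (hD : IsCompact D)
    (c : EuclideanSpace ℝ (Fin n)) (h : ℝ) (hh : 0 < h) :
    volProd (cone D c h) =
        ENNReal.ofReal ((n + 2 : ℝ) ^ (n + 2) / ((n + 1).factorial : ℝ) ^ 2) ↔
      volProd D = ENNReal.ofReal ((n + 1 : ℝ) ^ (n + 1) / (n.factorial : ℝ) ^ 2) := by
  have hc0 : ENNReal.ofReal ((n + 2 : ℝ) ^ (n + 2) / (n + 1 : ℝ) ^ (n + 3)) ≠ 0 := by
    rw [Ne, ENNReal.ofReal_eq_zero, not_le]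
    positivity
  rw [cone_volProd_eq D hD c h hh, simplex_const]
  exact ENNReal.mul_right_inj hc0 ENNReal.ofReal_ne_top

end Vale.Agent.Lib.P248.H1
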