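import Mathlib
import Vale.Agent.Lib.P248.helper1.ConeDefs
import Vale.Agent.Lib.P248.helper1.ConeMain
import Vale.Agent.Lib.P248.helper55.ABFinal
import Vale.Agent.Lib.P248.helper99.PolarProj
import Vale.Agent.Lib.P248.helper43.ProjJacobian
import Vale.Agent.Lib.P248.helper79.SymmIntegral
import Vale.Agent.Lib.P248.helper22.PolarMeasConst

/-!
# P248 (helper1): centrally symmetric sets and cones over symmetric locally anti-blocking bodies

For a centrally symmetric set `S` with the origin in its interior, the infimum defining the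
volume product `P(S)` is attained at the origin: `P(S) = |S| |S°|`.  Together with the
theorem on locally anti-blocking bodies and the cone identity this gives the simplex bound
of the general Mahler conjecture for every cone over an origin-symmetric locally
anti-blocking convex body.
-/

namespace Vale.Agent.Lib.P248.H1

open MeasureTheory Set
open scoped ENNReal

/-- For a centrally symmetric set with the origin in its interior, the volume product is
attained at the origin. -/
theorem volProd_symm {m : ℕ} (S : Set (EuclideanSpace ℝ (Fin m)))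
    (hS : ∀ x ∈ S, -x ∈ S) (h0 : (0 : EuclideanSpace ℝ (Fin m)) ∈ interior S) :
    volProd S = volume S * volume (polarAt S 0) := by
  refine le_antisymm (iInf₂_le 0 h0) ?_
  refine le_iInf₂ fun z hz => ?_
  have hmz : -z ∈ interior S := by
    rw [mem_interior] at hz ⊢
    obtain ⟨U, hUS, hUo, hzU⟩ := hz
    refine ⟨Neg.neg ⁻¹' U, ?_, hUo.preimage continuous_neg, ?_⟩
    · intro x hx
      have h1 := hS (-x) (hUS hx)
      simpa using h1
    · simpa using hzU
  have hTs : ∀ y ∈ polarAt S 0, -y ∈ polarAt S 0 := by
    intro y hy x hx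
    have h1 := hy (-x) (hS x hx)
    simpa [inner_neg_left, inner_neg_right] using h1
  have habs : ∀ y ∈ polarAt S 0, |inner ℝ z y| < 1 := by
    intro y hy
    rw [abs_lt]
    constructor
    · have h1 := H99Y.inner_lt_one_of_mem_interior S (-z) hmz y hy
      rw [inner_neg_left] at h1
      linarith
    · exact H99Y.inner_lt_one_of_mem_interior S z hz y hy
  have hT := H22Y.measurableSet_polarAt S 0
  rw [H99Y.polarAt_eq_image S z hz (interior_subset hmz),
    H43Y.volume_image_proj z (polarAt S 0) hT
      (fun y hy => H99Y.inner_lt_one_of_mem_interior S z hz y hy)]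
  gcongr
  exact H79Y.volume_le_lintegral_symm z (polarAt S 0) hT hTs habs

/-- The simplex bound of the general Mahler conjecture for every cone over an
origin-symmetric locally anti-blocking convex body. -/
theorem cone_volProd_sym_lab {n : ℕ} (D : Set (EuclideanSpace ℝ (Fin n))) (hcomp : IsCompact D)
    (c : EuclideanSpace ℝ (Fin n)) (h : ℝ) (hh : 0 < h)
    (hconv : Convex ℝ D) (h0 : (0 : EuclideanSpace ℝ (Fin n)) ∈ interior D)
    (hsymm : ∀ x ∈ D, -x ∈ D)
    (hLAB : ∀ x ∈ D, ∀ y : EuclideanSpace ℝ (Fin n),
      (∀ i, 0 ≤ x i * y i ∧ |y i| ≤ |x i|) → y ∈ D) :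
    ENNReal.ofReal ((n + 2 : ℝ) ^ (n + 2) / ((n + 1).factorial : ℝ) ^ 2) ≤
      volProd (cone D c h) := by
  refine cone_volProd_cond D hcomp c h hh ?_
  rw [volProd_symm D hsymm h0]
  have hLABthm := Vale.Agent.Lib.P248.H55.locally_anti_blocking hconv hcomp h0 hLAB
  have hpol : polarAt D 0 = {y : EuclideanSpace ℝ (Fin n) | ∀ x ∈ D, inner ℝ x y ≤ 1} := by
    ext y
    constructor
    · intro hy x hx
      have h1 := hy x hx
      rwa [sub_zero] at h1
    · intro hy x hx
      show inner ℝ (x - 0) y ≤ 1
      rw [sub_zero]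
      exact hy x hx
  rw [hpol]
  refine le_trans (ENNReal.ofReal_le_ofReal ?_) hLABthm
  have hF := H22Y.succ_pow_le_four_pow_factorial n
  have hf : (0 : ℝ) < n.factorial := by positivity
  rw [div_le_div_iff₀ (by positivity) hf]
  calc ((n : ℝ) + 1) ^ (n + 1) * (n.factorial : ℝ)
      ≤ (4 ^ n * (n.factorial : ℝ)) * (n.factorial : ℝ) := by gcongr
    _ = 4 ^ n * (n.factorial : ℝ) ^ 2 := by ring

end Vale.Agent.Lib.P248.H1
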